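import Vale.Agent.P272.K.AMP.BIG.Defs
import Vale.Agent.P272.K.AMP.Main.Step7

/-!
# AMP-BIG, block CHI: basic facts on the forms `χ = K_X + t w + i∂∂̄σ`
-/

open scoped Manifold ContDiff ComplexOrder Topology
open Complex Set Filter MeasureTheory

set_option linter.all false

noncomputable section

namespace Vale.Agent.P272.K.AMP.BIG.H327

open INT (intX PP IsClosedForm)
open Main BIG

variable {n : ℕ} {X : Type} [TopologicalSpace X] [ChartedSpace (Cm n) X]
  {w : Chart n X → Cm n → Matrix (Fin n) (Fin n) ℂ}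

/-- `σ` is a smooth potential of a Kähler form in `K_X + t[w]` -/
structure Pot (w : Chart n X → Cm n → Matrix (Fin n) (Fin n) ℂ) (t : ℝ) (σ : X → ℝ) : Prop where
  smooth : SmoothFn (n := n) σ
  pos : ∀ e x, At e x → (chiF w t σ e (e x)).PosDef

section
variable [IsManifold 𝓘(ℂ, Cm n) ω X]

/-- a closed positive form is a Kähler metric -/
lemma isKahler_of_closed {b : Chart n X → Cm n → Matrix (Fin n) (Fin n) ℂ} (hb : IsClosedForm b)
    (hp : ∀ e x, At e x → (b e (e x)).PosDef) : IsKahler b where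
  smooth := hb.smooth
  posDef := hp
  change := hb.form
  closed e x h i j k := hb.closed e x h k i j

/-- the background form `cHess (log det w) + t w` -/
def thF (w : Chart n X → Cm n → Matrix (Fin n) (Fin n) ℂ) (t : ℝ) :
    Chart n X → Cm n → Matrix (Fin n) (Fin n) ℂ :=
  fun e z => cHess (fun y => Real.log (w e y).det.re) z + (t : ℂ) • w e z

lemma isClosedForm_thF (hw : IsKahler w) (t : ℝ) : IsClosedForm (thF w t) :=
  (INT.isClosedForm_canonical (isCanonical_logdet hw.toIsHermitian)).add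
    ((INT.IsKahler.isClosedForm hw).smul (t : ℂ))

lemma isClosedForm_chiF (hw : IsKahler w) (t : ℝ) {σ : X → ℝ} (hσ : SmoothFn (n := n) σ) :
    IsClosedForm (chiF w t σ) :=
  (isClosedForm_thF hw t).add (INT.isClosedForm_cHess hσ)

lemma Pot.kahler (hw : IsKahler w) {t : ℝ} {σ : X → ℝ} (h : Pot w t σ) :
    IsKahler (chiF w t σ) :=
  isKahler_of_closed (isClosedForm_chiF hw t h.smooth) h.pos

omit [IsManifold 𝓘(ℂ, Cm n) ω X] in
lemma chiF_const_mul_add {t a b : ℝ} (hab : a + b = 1) {σ τ : X → ℝ} (hσ : SmoothFn (n := n) σ)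
    (hτ : SmoothFn (n := n) τ) {e : Chart n X} {x : X} (hx : At e x) :
    chiF w t (fun x => a * σ x + b * τ x) e (e x) =
      (a : ℂ) • chiF w t σ e (e x) + (b : ℂ) • chiF w t τ e (e x) := by
  have h1 : cHess (fun y => a * σ (e.symm y) + b * τ (e.symm y)) (e x) =
      (a : ℂ) • cHess (fun y => σ (e.symm y)) (e x) +
        (b : ℂ) • cHess (fun y => τ (e.symm y)) (e x) := by
    have h2 := hess_add' (n := n) (sm_const_mul a hσ) (sm_const_mul b hτ) hx
    have h3 := hess_const_mul' (n := n) a hσ hx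
    have h4 := hess_const_mul' (n := n) b hτ hx
    unfold hess at h2 h3 h4
    rw [h2, h3, h4]
  unfold chiF
  rw [h1]
  have hb : (b : ℂ) = 1 - (a : ℂ) := by
    rw [eq_sub_iff_add_eq, add_comm, ← Complex.ofReal_add, hab, Complex.ofReal_one]
  rw [hb]
  simp only [smul_add, sub_smul, one_smul]
  abel

omit [IsManifold 𝓘(ℂ, Cm n) ω X] in
/-- the potentials form a convex set -/
lemma Pot.convex {t r : ℝ} (hr0 : 0 ≤ r) (hr1 : r ≤ 1) {σ τ : X → ℝ} (hσ : Pot w t σ)
    (hτ : Pot w t τ) : Pot w t (fun x => (1 - r) * σ x + r * τ x) := by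
  refine ⟨sm_add (sm_const_mul _ hσ.smooth) (sm_const_mul _ hτ.smooth), fun e x hx => ?_⟩
  rw [chiF_const_mul_add (by ring) hσ.smooth hτ.smooth hx]
  rcases hr0.eq_or_lt with h | h
  · rw [← h]
    simpa using hσ.pos e x hx
  · exact (posDef_ofReal_smul (hτ.pos e x hx) h).posSemidef_add
      (posSemidef_ofReal_smul (hσ.pos e x hx).posSemidef (by linarith))

omit [IsManifold 𝓘(ℂ, Cm n) ω X] in
lemma chiF_add_const (t c : ℝ) {σ : X → ℝ} (hσ : SmoothFn (n := n) σ) {e : Chart n X} {x : X}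
    (hx : At e x) : chiF w t (fun x => σ x + c) e (e x) = chiF w t σ e (e x) := by
  unfold chiF
  have h2 := hess_add' (n := n) hσ (smoothFn_const c) hx
  unfold hess at h2
  rw [h2, N.cHess_const, add_zero]

omit [IsManifold 𝓘(ℂ, Cm n) ω X] in
lemma Pot.add_const {t : ℝ} {σ : X → ℝ} (h : Pot w t σ) (c : ℝ) :
    Pot w t (fun x => σ x + c) := by
  refine ⟨sm_add h.smooth (smoothFn_const c), fun e x hx => ?_⟩
  rw [chiF_add_const t c h.smooth hx]
  exact h.pos e x hx

variable [T2Space X] [CompactSpace X]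

lemma exists_pot (hw : IsHermitian w) {t : ℝ} (h : Pos w t) : ∃ σ : X → ℝ, Pot w t σ := by
  obtain ⟨φ, hφ, hpos⟩ := h
  obtain ⟨u, hu, hu2⟩ := INT.exists_diff hφ (isCanonical_logdet hw)
  refine ⟨u, hu, fun e x hx => ?_⟩
  have h1 := hpos e x hx
  rw [hu2 e x hx] at h1
  have h2 : chiF w t u e (e x) = cHess (fun z => Real.log (w e z).det.re) (e x) +
      cHess (fun y => u (e.symm y)) (e x) + (t : ℂ) • w e (e x) := by
    unfold chiF; abel
  rw [h2]
  exact h1

lemma Pot.vol (hw : IsKahler w) {t : ℝ} {σ : X → ℝ} (h : SmoothFn (n := n) σ) :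
    intX (fun e z => (chiF w t σ e z).det.re) = PP (phi0 w) w t :=
  INT.intX_det_add_cHess (isClosedForm_thF hw t) h

/-- `PP` is a smooth function of `t` -/
lemma PP_eq_sum {φ : Chart n X → Cm n → ℝ} (hφ : IsCanonicalMetric φ) (hw : IsClosedForm w)
    (t : ℝ) : PP φ w t = ∑ j : Fin (n + 1), INT.lag n j t * PP φ w j := by
  unfold PP
  have : ∀ j : Fin (n + 1), INT.lag n j t *
      intX (fun e z => (cHess (φ e) z + ((j : ℝ) : ℂ) • w e z).det.re) =
      intX fun e z => INT.lag n j t * (cHess (φ e) z + ((j : ℝ) : ℂ) • w e z).det.re :=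
    fun j => (INT.intX_const_mul _ _).symm
  simp only [this]
  have hj : ∀ j : Fin (n + 1), INT.IsDensity fun e z =>
      INT.lag n j t * (cHess (φ e) z + ((j : ℝ) : ℂ) • w e z).det.re :=
    fun j => (((INT.isClosedForm_canonical hφ).add (hw.smul ((j : ℝ) : ℂ))).isDensity).const_mul _
  rw [← INT.intX_sum _ fun j _ => hj j]
  exact INT.intX_congr fun e x hx => (INT.isPolyN_det _ _).eq_sum t

lemma contDiff_PP {φ : Chart n X → Cm n → ℝ} (hφ : IsCanonicalMetric φ) (hw : IsClosedForm w) :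
    ContDiff ℝ 1 (PP φ w) := by
  have h : PP φ w = fun t => ∑ j : Fin (n + 1), INT.lag n j t * PP φ w j :=
    funext (PP_eq_sum hφ hw)
  rw [h]
  refine ContDiff.sum fun j _ => ContDiff.mul ?_ contDiff_const
  have h1 : INT.lag n j = fun t => (Lagrange.basis (Finset.univ : Finset (Fin (n + 1)))
      (fun i => (i : ℝ)) j).eval t := rfl
  have h2 := Polynomial.contDiff_aeval (𝕜 := ℝ) (R := ℝ)
    (Lagrange.basis (Finset.univ : Finset (Fin (n + 1))) (fun i => (i : ℝ)) j) 1
  simp only [Polynomial.coe_aeval_eq_eval] at h2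
  rw [h1]
  exact h2

/-- `∫ tr_χ w dv_χ` is the derivative of the volume -/
lemma deriv_PP (hw : IsKahler w) {t : ℝ} {σ : X → ℝ} (h : Pot w t σ) :
    IX (chiF w t σ) (trX (chiF w t σ) w) = deriv (PP (phi0 w) w) t := by
  have hcan := isCanonical_logdet hw.toIsHermitian
  have hsm : ∀ e x, At e x → ContDiffAt ℝ ∞
      (fun z => Real.log (w e z).det.re + σ (e.symm z)) (e x) :=
    fun e x hx => (hcan.smooth e x hx).add (h.smooth e x hx)
  have hcan' : IsCanonicalMetric fun e z => Real.log (w e z).det.re + σ (e.symm z) := by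
    refine ⟨hsm, fun e e' x hx hx' => ?_⟩
    simp only [hx.left_inv, hx'.left_inv]
    rw [hcan.change e e' x hx hx']; ring
  have hcl := INT.IsKahler.isClosedForm hw
  have heq : ∀ e x, At e x → cHess (fun z => Real.log (w e z).det.re + σ (e.symm z)) (e x) +
      (t : ℂ) • w e (e x) = chiF w t σ e (e x) := by
    intro e x hx
    rw [cHess_add ((hcan.smooth e x hx).of_le INT.two_le_inf) (INT.SmoothFn.two h.smooth e x hx)]
    unfold chiF
    abel
  have h1 := INT.PP_hasDerivAt' hcan' hcl (t := t) fun e x hx => by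
    rw [heq e x hx]; exact h.pos e x hx
  have h2 : PP (fun e z => Real.log (w e z).det.re + σ (e.symm z)) w = PP (phi0 w) w :=
    funext fun s => INT.PP_eq hcan' hcan hcl s
  rw [h2] at h1
  rw [h1.deriv]
  unfold IX
  refine INT.intX_congr fun e x hx => ?_
  have h3 : trX (chiF w t σ) w x = ((chiF w t σ e (e x))⁻¹ * w e (e x)).trace.re :=
    trX_eq (h.kahler hw).toIsHermitian hw.toIsHermitian.isForm hx
  rw [heq e x hx, hx.left_inv, h3]

/-- uniform bound of `∫ tr_χ w dv_χ` -/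
lemma exists_M (hw : IsKahler w) : ∃ M : ℝ, 0 < M ∧ ∀ t : ℝ, 0 ≤ t → t ≤ 1 → ∀ σ : X → ℝ,
    Pot w t σ → IX (chiF w t σ) (trX (chiF w t σ) w) ≤ M := by
  have hc : Continuous (deriv (PP (phi0 w) w)) :=
    (contDiff_PP (isCanonical_logdet hw.toIsHermitian)
      (INT.IsKahler.isClosedForm hw)).continuous_deriv le_rfl
  obtain ⟨t0, -, ht0⟩ := (isCompact_Icc (a := (0 : ℝ)) (b := 1)).exists_isMaxOn
    ⟨0, by simp⟩ hc.continuousOn
  refine ⟨max (deriv (PP (phi0 w) w) t0) 1, lt_max_of_lt_right one_pos,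
    fun t h0 h1 σ hσ => ?_⟩
  rw [deriv_PP hw hσ]
  exact (ht0 ⟨h0, h1⟩).trans (le_max_left _ _)

/-- uniform bound of the volumes -/
lemma exists_PPbound (hw : IsKahler w) : ∃ V1 : ℝ, 0 ≤ V1 ∧ ∀ t : ℝ, 0 ≤ t → t ≤ 1 →
    PP (phi0 w) w t ≤ V1 := by
  have hc : Continuous (PP (phi0 w) w) :=
    (contDiff_PP (isCanonical_logdet hw.toIsHermitian)
      (INT.IsKahler.isClosedForm hw)).continuous
  obtain ⟨t0, -, ht0⟩ := (isCompact_Icc (a := (0 : ℝ)) (b := 1)).exists_isMaxOn
    ⟨0, by simp⟩ hc.continuousOn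
  exact ⟨max (PP (phi0 w) w t0) 0, le_max_right _ _, fun t h0 h1 =>
    (ht0 ⟨h0, h1⟩).trans (le_max_left _ _)⟩

end

end Vale.Agent.P272.K.AMP.BIG.H327
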