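import Vale.Agent.P272.K.AMP.BIG.H327.Oracle

/-!
# AMP-BIG, block CHI: boosting
-/

open scoped Manifold ContDiff ComplexOrder Topology
open Complex Set Filter MeasureTheory

set_option linter.all false

noncomputable section

namespace Vale.Agent.P272.K.AMP.BIG.H327

open INT (intX PP IsClosedForm)
open Main BIG

/-- Taylor: `e^{-y} ≤ 1 - y + (y²/2) e^{max(-y, 0)}` in the form used below -/
lemma exp_neg_le {y z : ℝ} (h : -y ≤ z) (hz : 0 ≤ z) :
    Real.exp (-y) ≤ 1 - y + y ^ 2 * Real.exp z := by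
  -- `e^u ≤ 1 + u + u² e^{z}` for `u ≤ z`, `z ≥ 0`
  set u := -y with hu
  have key : Real.exp u ≤ 1 + u + u ^ 2 * Real.exp z := by
    rcases le_or_gt u 0 with h0 | h0
    · -- `e^u ≤ 1 + u + u²` for `u ≤ 0`
      have h1 : 1 ≤ Real.exp z := Real.one_le_exp hz
      have h2 : Real.exp u ≤ 1 + u + u ^ 2 := by
        have h3 := Real.add_one_le_exp (-u)
        have h4 : 0 < Real.exp (-u) := Real.exp_pos _
        have h5 : Real.exp u * Real.exp (-u) = 1 := by rw [← Real.exp_add]; simp
        -- `(1 + u + u²)(1 - u) = 1 - u³ ≥ 1`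
        by_contra hcon
        push Not at hcon
        have h6 : (1 + u + u ^ 2) * (-u + 1) < Real.exp u * Real.exp (-u) := by
          have h7 : 0 ≤ 1 + u + u ^ 2 := by nlinarith [sq_nonneg (u + 1 / 2)]
          calc (1 + u + u ^ 2) * (-u + 1) ≤ (1 + u + u ^ 2) * Real.exp (-u) :=
                mul_le_mul_of_nonneg_left h3 h7
            _ < Real.exp u * Real.exp (-u) := mul_lt_mul_of_pos_right hcon h4
        rw [h5] at h6
        have h8 : (1 + u + u ^ 2) * (-u + 1) = 1 - u ^ 3 := by ring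
        rw [h8] at h6
        have h9 : u ^ 3 ≤ 0 := by
          have : u ^ 3 = u * u ^ 2 := by ring
          rw [this]
          exact mul_nonpos_of_nonpos_of_nonneg h0 (sq_nonneg _)
        linarith
      nlinarith [sq_nonneg u]
    · -- `e^u - 1 - u ≤ u² e^u`, `e^u ≤ e^z`
      have h1 : Real.exp u ≤ Real.exp z := Real.exp_le_exp.2 h
      have h2 : Real.exp u ≤ 1 + u + u ^ 2 * Real.exp u := by
        -- `e^{-u} ≥ 1 - u` hence `1 ≥ e^u (1 - u)`, i.e. `e^u ≤ 1 + u e^u`, used twice
        have h3 := Real.add_one_le_exp (-u)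
        have h4 : Real.exp u * Real.exp (-u) = 1 := by rw [← Real.exp_add]; simp
        have h5 : Real.exp u * (-u + 1) ≤ 1 := by
          have := mul_le_mul_of_nonneg_left h3 (Real.exp_pos u).le
          rwa [h4] at this
        have h6 : Real.exp u ≤ 1 + u * Real.exp u := by linarith
        have h7 : u * Real.exp u ≤ u * (1 + u * Real.exp u) := mul_le_mul_of_nonneg_left h6 h0.le
        nlinarith
      have h3 : u ^ 2 * Real.exp u ≤ u ^ 2 * Real.exp z :=
        mul_le_mul_of_nonneg_left h1 (sq_nonneg _)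
      linarith
  have e1 : u ^ 2 = y ^ 2 := by rw [hu]; ring
  rw [e1] at key
  have e2 : 1 - y = 1 + u := by rw [hu]; ring
  rw [e2]
  exact key

variable {n : ℕ} {X : Type} [TopologicalSpace X] [ChartedSpace (Cm n) X]
  [IsManifold 𝓘(ℂ, Cm n) ω X] [T2Space X] [CompactSpace X]
  {w : Chart n X → Cm n → Matrix (Fin n) (Fin n) ℂ}

/-- entropy: `∫ F m ≤ -(1/N) log (∫F / vol) ∫F` for `F = e^{-N m}` -/
lemma entropy [Nonempty X] (hw : IsHermitian w) {m : X → ℝ} (hm : Continuous m) {N : ℝ}
    (hN : 0 < N) :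
    N * IX w (fun x => Real.exp (-(N * m x)) * m x) ≤
      -Real.log (IX w (fun x => Real.exp (-(N * m x))) / IX w (fun _ => 1)) *
        IX w (fun x => Real.exp (-(N * m x))) := by
  set A := IX w (fun x => Real.exp (-(N * m x))) with hA
  set V := IX w (fun _ => 1) with hV
  have hV0 : 0 < V := IX_pos hw continuous_const fun _ => one_pos
  have hA0 : 0 < A := IX_pos hw (by fun_prop) fun x => Real.exp_pos _
  set c := A / V with hc
  have hc0 : 0 < c := div_pos hA0 hV0
  -- pointwise: `F log F ≥ F log c + F - c`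
  have h1 : IX w (fun x => Real.log c * Real.exp (-(N * m x)) + (Real.exp (-(N * m x)) - c * 1)) ≤
      IX w (fun x => -(N * (Real.exp (-(N * m x)) * m x))) := by
    refine IX_mono hw (by fun_prop) (by fun_prop) fun x => ?_
    set F := Real.exp (-(N * m x)) with hF
    have hF0 : 0 < F := Real.exp_pos _
    have h2 : Real.log F = -(N * m x) := by rw [hF, Real.log_exp]
    have h3 : Real.log (c / F) ≤ c / F - 1 := Real.log_le_sub_one_of_pos (div_pos hc0 hF0)
    rw [Real.log_div hc0.ne' hF0.ne', h2] at h3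
    have h4 := mul_le_mul_of_nonneg_left h3 hF0.le
    have h5 : F * (c / F - 1) = c - F := by field_simp
    rw [h5] at h4
    nlinarith
  rw [IX_add hw (by fun_prop) (by fun_prop), IX_const_mul, IX_sub hw (by fun_prop) (by fun_prop),
    IX_const_mul, IX_neg, IX_const_mul, ← hA, ← hV] at h1
  have h2 : c * V = A := by rw [hc]; field_simp
  rw [h2] at h1
  linarith

/-- the functional `Φ(χ) = ∫ e^{-N m_χ} dv_w` -/
def Phi (w : Chart n X → Cm n → Matrix (Fin n) (Fin n) ℂ) (t N : ℝ) (σ : X → ℝ) : ℝ :=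
  IX w (fun x => Real.exp (-(N * mX w (chiF w t σ) x)))

/-- decrease of `Φ` along a segment -/
lemma Phi_segment (hn : 2 ≤ n) (hw : IsKahler w) {t N r : ℝ} (hN : 0 < N) (h0 : 0 ≤ r)
    (h1 : r ≤ 1) {σ τ : X → ℝ} (hσ : Pot w t σ) (hτ : Pot w t τ) :
    Phi w t N (fun x => (1 - r) * σ x + r * τ x) ≤ Phi w t N σ -
      N * r * (IX w (fun x => Real.exp (-(N * mX w (chiF w t σ) x)) * mX w (chiF w t τ) x) -
        IX w (fun x => Real.exp (-(N * mX w (chiF w t σ) x)) * mX w (chiF w t σ) x)) +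
      (N * r) ^ 2 * (2 * (IX w (fun _ => 1) + PP (phi0 w) w t)) := by
  haveI : NeZero n := ⟨by omega⟩
  have hwH := hw.toIsHermitian
  have hσr := hσ.convex h0 h1 hτ
  set m : X → ℝ := mX w (chiF w t σ) with hm
  set m' : X → ℝ := mX w (chiF w t τ) with hm'
  set mr : X → ℝ := mX w (chiF w t (fun x => (1 - r) * σ x + r * τ x)) with hmr
  have cm : Continuous m := continuous_mX (hσ.kahler hw).toIsHermitian hwH
  have cm' : Continuous m' := continuous_mX (hτ.kahler hw).toIsHermitian hwH
  have cmr : Continuous mr := continuous_mX (hσr.kahler hw).toIsHermitian hwH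
  have m0 : ∀ x, 0 < m x := mX_pos (hσ.kahler hw).toIsHermitian hwH
  have m0' : ∀ x, 0 < m' x := mX_pos (hτ.kahler hw).toIsHermitian hwH
  have h2 : ∀ x, (1 - r) * m x + r * m' x ≤ mr x := mX_concave hwH h0 h1 hσ hτ
  have hNr : 0 ≤ N * r := by positivity
  have h3 : Phi w t N (fun x => (1 - r) * σ x + r * τ x) ≤
      IX w (fun x => (Real.exp (-(N * m x)) - N * r * (Real.exp (-(N * m x)) * m' x -
        Real.exp (-(N * m x)) * m x)) + (N * r) ^ 2 * (m' x ^ 2 + m x ^ 2)) := by
    unfold Phi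
    rw [← hmr]
    refine IX_mono hwH (by fun_prop) (by fun_prop) fun x => ?_
    have h4 : Real.exp (-(N * mr x)) ≤
        Real.exp (-(N * m x)) * Real.exp (-(N * r * (m' x - m x))) := by
      rw [← Real.exp_add]
      refine Real.exp_le_exp.2 ?_
      have h5 := mul_le_mul_of_nonneg_left (h2 x) hN.le
      nlinarith
    have h5 : Real.exp (-(N * r * (m' x - m x))) ≤ 1 - N * r * (m' x - m x) +
        (N * r * (m' x - m x)) ^ 2 * Real.exp (N * r * m x) := by
      refine exp_neg_le ?_ (mul_nonneg hNr (m0 x).le)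
      have := mul_nonneg hNr (m0' x).le
      nlinarith
    have h6 : Real.exp (-(N * m x)) * Real.exp (N * r * m x) ≤ 1 := by
      rw [← Real.exp_add]
      refine Real.exp_le_one_iff.2 ?_
      have h7 : -(N * m x) + N * r * m x = -((N * (1 - r)) * m x) := by ring
      rw [h7]
      have : 0 ≤ (N * (1 - r)) * m x := mul_nonneg (mul_nonneg hN.le (by linarith)) (m0 x).le
      linarith
    have h7 : (m' x - m x) ^ 2 ≤ m' x ^ 2 + m x ^ 2 := by
      have := mul_pos (m0 x) (m0' x)
      nlinarith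
    have hE := Real.exp_pos (-(N * m x))
    calc Real.exp (-(N * mr x)) ≤ Real.exp (-(N * m x)) * Real.exp (-(N * r * (m' x - m x))) := h4
      _ ≤ Real.exp (-(N * m x)) * (1 - N * r * (m' x - m x) +
          (N * r * (m' x - m x)) ^ 2 * Real.exp (N * r * m x)) :=
          mul_le_mul_of_nonneg_left h5 hE.le
      _ = (Real.exp (-(N * m x)) - N * r * (Real.exp (-(N * m x)) * m' x -
          Real.exp (-(N * m x)) * m x)) + (N * r * (m' x - m x)) ^ 2 *
          (Real.exp (-(N * m x)) * Real.exp (N * r * m x)) := by ring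
      _ ≤ (Real.exp (-(N * m x)) - N * r * (Real.exp (-(N * m x)) * m' x -
          Real.exp (-(N * m x)) * m x)) + (N * r * (m' x - m x)) ^ 2 * 1 := by
          have := mul_le_mul_of_nonneg_left h6 (sq_nonneg (N * r * (m' x - m x)))
          linarith
      _ ≤ _ := by
          have h8 := mul_le_mul_of_nonneg_left h7 (sq_nonneg (N * r))
          have h9 : (N * r * (m' x - m x)) ^ 2 * 1 = (N * r) ^ 2 * (m' x - m x) ^ 2 := by ring
          rw [h9]
          linarith
  refine h3.trans ?_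
  rw [IX_add hwH (by fun_prop) (by fun_prop), IX_sub hwH (by fun_prop) (by fun_prop),
    IX_const_mul, IX_const_mul, IX_sub hwH (by fun_prop) (by fun_prop),
    IX_add hwH (by fun_prop) (by fun_prop)]
  have h4 := IX_mX_sq_le hn hw hσ
  have h5 := IX_mX_sq_le hn hw hτ
  have h6 : (N * r) ^ 2 * (IX w (fun x => m' x ^ 2) + IX w (fun x => m x ^ 2)) ≤
      (N * r) ^ 2 * (2 * (IX w (fun _ => 1) + PP (phi0 w) w t)) :=
    mul_le_mul_of_nonneg_left (by linarith) (sq_nonneg _)
  have h7 : Phi w t N σ = IX w (fun x => Real.exp (-(N * m x))) := rfl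
  rw [h7]
  linarith

/-- **boosting** -/
theorem boost [Nonempty X] (hn : 2 ≤ n) (hAY : AubinYau n X) (hE : ExpInt n X) (hw : IsKahler w)
    {v0 M : ℝ} (hv0 : 0 < v0) (hM : 0 < M)
    (hMb : ∀ t : ℝ, 0 ≤ t → t ≤ 1 → ∀ σ : X → ℝ, Pot w t σ →
      IX (chiF w t σ) (trX (chiF w t σ) w) ≤ M)
    {t : ℝ} (ht0 : 0 ≤ t) (ht1 : t ≤ 1) (hP : Pos w t) (hv : v0 ≤ PP (phi0 w) w t)
    {N : ℝ} (hN : 0 < N) {κ : ℝ} (hκ : 0 < κ) :
    ∃ σ : X → ℝ, Pot w t σ ∧
      Phi w t N σ ≤ Real.exp (-(N * (v0 / M))) * IX w (fun _ => 1) + κ := by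
  haveI : NeZero n := ⟨by omega⟩
  have hwH := hw.toIsHermitian
  by_contra hcon
  push Not at hcon
  set V := IX w (fun _ => 1) with hV
  have hV0 : 0 < V := IX_pos hwH continuous_const fun _ => one_pos
  set δ0 := v0 / M with hδ0
  have hδ : 0 < δ0 := div_pos hv0 hM
  set L := Real.exp (-(N * δ0)) * V + κ with hL
  have hL0 : 0 < L := by positivity
  -- the bound `q` for the average of `m`
  set q := -Real.log (L / V) / N with hq
  have hqδ : q < δ0 := by
    rw [hq, div_lt_iff₀ hN]
    have h1 : Real.exp (-(N * δ0)) < L / V := by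
      rw [lt_div_iff₀ hV0]; linarith
    have h2 := Real.log_lt_log (Real.exp_pos _) h1
    rw [Real.log_exp] at h2
    linarith
  set η := min 1 ((δ0 - q) / (2 * δ0)) with hη
  have hη0 : 0 < η := lt_min one_pos (div_pos (by linarith) (by linarith))
  have hη1 : η ≤ 1 := min_le_left _ _
  set d := (δ0 - q) / 2 with hd
  have hd0 : 0 < d := by rw [hd]; linarith
  have hηd : q + d ≤ (1 - η) * δ0 := by
    have h1 : η * δ0 ≤ (δ0 - q) / (2 * δ0) * δ0 :=
      mul_le_mul_of_nonneg_right (min_le_right _ _) hδ.le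
    have h2 : (δ0 - q) / (2 * δ0) * δ0 = (δ0 - q) / 2 := by field_simp
    rw [h2] at h1
    rw [hd]; linarith
  -- the second order constant
  have hPP0 : 0 < PP (phi0 w) w t := lt_of_lt_of_le hv0 hv
  set S := 2 * (V + PP (phi0 w) w t) with hS
  have hS0 : 0 < S := by positivity
  set r := min 1 (d * L / (2 * N * S)) with hr
  have hr0 : 0 < r := lt_min one_pos (by positivity)
  have hr1 : r ≤ 1 := min_le_left _ _
  have hrS : (N * r) ^ 2 * S ≤ N * r * (d * L) / 2 := by
    have h1 : r * (2 * N * S) ≤ d * L := by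
      have := min_le_right 1 (d * L / (2 * N * S))
      rwa [le_div_iff₀ (by positivity)] at this
    have h2 : N * r * (r * (2 * N * S)) ≤ N * r * (d * L) :=
      mul_le_mul_of_nonneg_left h1 (by positivity)
    nlinarith
  -- decrease by a fixed amount
  have hdec : ∀ σ : X → ℝ, Pot w t σ → ∃ σ' : X → ℝ, Pot w t σ' ∧
      Phi w t N σ' ≤ Phi w t N σ - N * r * (d * L) / 2 := by
    intro σ hσ
    set m : X → ℝ := mX w (chiF w t σ) with hm
    have sm : SmoothFn (n := n) m := smoothFn_mX (hσ.kahler hw).toIsHermitian hwH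
    have cm := INT.SmoothFn.continuous sm
    have hFs : SmoothFn (n := n) (fun x => Real.exp (-(N * m x))) :=
      sm_exp (sm_neg (sm_const_mul N sm))
    obtain ⟨τ, hτ, hor⟩ := oracle (by omega) hAY hE hw hv0 hM hMb ht0 ht1 hP hv hFs
      (fun x => Real.exp_pos _) hη0 hη1
    refine ⟨_, hσ.convex hr0.le hr1 hτ, ?_⟩
    refine (Phi_segment hn hw hN hr0.le hr1 hσ hτ).trans ?_
    rw [← hV, ← hS, ← hm]
    set A := IX w (fun x => Real.exp (-(N * m x))) with hA
    have hAphi : Phi w t N σ = A := rfl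
    have hAL : L < A := by rw [← hAphi]; exact hcon σ hσ
    have hA0 : 0 < A := hL0.trans hAL
    have hent := entropy hwH cm hN
    rw [← hA, ← hV] at hent
    have h1 : IX w (fun x => Real.exp (-(N * m x)) * m x) ≤ q * A := by
      have h2 : Real.log (L / V) ≤ Real.log (A / V) :=
        Real.log_le_log (div_pos hL0 hV0) (div_le_div_of_nonneg_right hAL.le hV0.le)
      have h3 : N * IX w (fun x => Real.exp (-(N * m x)) * m x) ≤ N * (q * A) := by
        refine hent.trans ?_
        have h4 : N * (q * A) = -Real.log (L / V) * A := by rw [hq]; field_simp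
        rw [h4]
        exact mul_le_mul_of_nonneg_right (by linarith) hA0.le
      exact le_of_mul_le_mul_left h3 hN
    have h2 : (q + d) * A ≤ IX w (fun x => Real.exp (-(N * m x)) * mX w (chiF w t τ) x) := by
      refine le_trans ?_ hor
      exact mul_le_mul_of_nonneg_right hηd hA0.le
    have h3 : d * L ≤ IX w (fun x => Real.exp (-(N * m x)) * mX w (chiF w t τ) x) -
        IX w (fun x => Real.exp (-(N * m x)) * m x) := by
      have h4 : d * L ≤ d * A := mul_le_mul_of_nonneg_left hAL.le hd0.le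
      have h5 : (q + d) * A = q * A + d * A := by ring
      linarith
    have h4 := mul_le_mul_of_nonneg_left h3 (show 0 ≤ N * r by positivity)
    linarith
  -- the infimum
  set T : Set ℝ := {y | ∃ σ : X → ℝ, Pot w t σ ∧ y = Phi w t N σ} with hT
  obtain ⟨σ0, hσ0⟩ := exists_pot hwH hP
  have hne : T.Nonempty := ⟨_, σ0, hσ0, rfl⟩
  have hbd : BddBelow T := ⟨L, by rintro y ⟨σ, hσ, rfl⟩; exact (hcon σ hσ).le⟩
  have hpos : 0 < N * r * (d * L) / 2 := by positivity
  obtain ⟨y, ⟨σ, hσ, rfl⟩, hy⟩ := exists_lt_of_csInf_lt hne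
    (show sInf T < sInf T + N * r * (d * L) / 2 by linarith)
  obtain ⟨σ', hσ', h'⟩ := hdec σ hσ
  have := csInf_le hbd (show Phi w t N σ' ∈ T from ⟨σ', hσ', rfl⟩)
  linarith

end Vale.Agent.P272.K.AMP.BIG.H327
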