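import Vale.Agent.P272.K.AMP.BIG.H327.Boost
import Vale.Agent.P272.K.AMP.Main.Ample

/-!
# AMP-BIG, block CHI
-/

open scoped Manifold ContDiff ComplexOrder Topology
open Complex Set Filter MeasureTheory

set_option linter.all false

noncomputable section

namespace Vale.Agent.P272.K.AMP.BIG.H327

open INT (intX PP IsClosedForm)
open Main BIG

variable {n : ℕ} {X : Type} [TopologicalSpace X] [ChartedSpace (Cm n) X]
  [IsManifold 𝓘(ℂ, Cm n) ω X] [T2Space X] [CompactSpace X]
  {w : Chart n X → Cm n → Matrix (Fin n) (Fin n) ℂ}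

omit [IsManifold 𝓘(ℂ, Cm n) ω X] [T2Space X] [CompactSpace X] in
lemma mX_add_const (t c : ℝ) {σ : X → ℝ} (hσ : SmoothFn (n := n) σ) (x : X) :
    mX w (chiF w t (fun x => σ x + c)) x = mX w (chiF w t σ) x := by
  unfold mX trX atX trE
  rw [chiF_add_const t c hσ (at_chartAt x)]

/-- **block CHI** -/
theorem chiBlock_of [Nonempty X] (hn : 2 ≤ n) (hAY : AubinYau n X) (hE : ExpInt n X) :
    ChiBlock n X := by
  haveI : NeZero n := ⟨by omega⟩
  intro w hw v0 hv0 ht
  have hwH := hw.toIsHermitian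
  obtain ⟨M, hM, hMb⟩ := exists_M hw
  have hδ0 : 0 < v0 / M := div_pos hv0 hM
  set δ := v0 / M / 2 with hδ
  have hδp : 0 < δ := by positivity
  refine ⟨δ, hδp, fun t ht0 ht1 ε hε => ?_⟩
  obtain ⟨hP, hv⟩ := ht t ht0 ht1
  set V := IX w (fun _ => 1) with hV
  have hV0 : 0 < V := IX_pos hwH continuous_const fun _ => one_pos
  set N := max 1 (2 * V / ε) with hN
  have hN0 : 0 < N := lt_max_of_lt_left one_pos
  obtain ⟨σ, hσ, hPhi⟩ := boost hn hAY hE hw hv0 hM hMb ht0.le ht1 hP hv hN0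
    (κ := Real.exp (-(N * (v0 / M))) * V) (mul_pos (Real.exp_pos _) hV0)
  have cσ := INT.SmoothFn.continuous hσ.smooth
  obtain ⟨x0, -, hx0⟩ := isCompact_univ.exists_isMaxOn ⟨Classical.arbitrary X, Set.mem_univ _⟩
    cσ.continuousOn
  have hσmax : ∀ x, σ x ≤ σ x0 := fun x => hx0 (Set.mem_univ x)
  have hσs := hσ.add_const (-σ x0)
  refine ⟨fun x => σ x + -σ x0, ⟨hσs.smooth, fun x => by have := hσmax x; linarith,
    ⟨x0, by ring⟩, hσs.pos⟩, ?_⟩
  have cm : Continuous (mX w (chiF w t σ)) := continuous_mX (hσ.kahler hw).toIsHermitian hwH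
  have h1 : IX w (fun x => max (δ - mX w (chiF w t (fun x => σ x + -σ x0)) x) 0) =
      IX w (fun x => max (δ - mX w (chiF w t σ) x) 0) :=
    IX_congr fun x => by rw [mX_add_const t _ hσ.smooth]
  rw [h1]
  have h2 : IX w (fun x => max (δ - mX w (chiF w t σ) x) 0) ≤
      IX w (fun x => δ * (Real.exp (N * δ) * Real.exp (-(N * mX w (chiF w t σ) x)))) := by
    refine IX_mono hwH (by fun_prop) (by fun_prop) fun x => ?_
    set m := mX w (chiF w t σ) x with hm
    have hm0 : 0 < m := mX_pos (hσ.kahler hw).toIsHermitian hwH x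
    rw [← Real.exp_add]
    have h3 : N * δ + -(N * m) = N * (δ - m) := by ring
    rw [h3]
    rcases le_or_gt δ m with h | h
    · rw [max_eq_right (by linarith)]
      positivity
    · rw [max_eq_left (by linarith)]
      have h4 : 1 ≤ Real.exp (N * (δ - m)) := Real.one_le_exp (mul_nonneg hN0.le (by linarith))
      nlinarith
  refine h2.trans ?_
  rw [IX_const_mul, IX_const_mul]
  have h3 : IX w (fun x => Real.exp (-(N * mX w (chiF w t σ) x))) = Phi w t N σ := rfl
  rw [h3]
  have h4 : Real.exp (N * δ) * Phi w t N σ ≤ 2 * V * Real.exp (-(N * δ)) := by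
    have h5 := mul_le_mul_of_nonneg_left hPhi (Real.exp_pos (N * δ)).le
    refine h5.trans (le_of_eq ?_)
    have h6 : Real.exp (N * δ) * Real.exp (-(N * (v0 / M))) = Real.exp (-(N * δ)) := by
      rw [← Real.exp_add]; congr 1; rw [hδ]; ring
    calc Real.exp (N * δ) * (Real.exp (-(N * (v0 / M))) * V + Real.exp (-(N * (v0 / M))) * V) =
        2 * V * (Real.exp (N * δ) * Real.exp (-(N * (v0 / M)))) := by ring
      _ = _ := by rw [h6]
  have h5 : δ * (Real.exp (N * δ) * Phi w t N σ) ≤ δ * (2 * V * Real.exp (-(N * δ))) :=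
    mul_le_mul_of_nonneg_left h4 hδp.le
  refine h5.trans ?_
  -- `N δ e^{-Nδ} ≤ 1`
  have h6 : N * δ * Real.exp (-(N * δ)) ≤ 1 := by
    have h7 := Real.add_one_le_exp (N * δ)
    have h8 : Real.exp (N * δ) * Real.exp (-(N * δ)) = 1 := by rw [← Real.exp_add]; simp
    have h9 := mul_le_mul_of_nonneg_right (show N * δ ≤ Real.exp (N * δ) by linarith)
      (Real.exp_pos (-(N * δ))).le
    rwa [h8] at h9
  have h7 : 2 * V ≤ ε * N := by
    have := le_max_right 1 (2 * V / ε)
    rw [← hN, div_le_iff₀ hε] at this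
    linarith
  have h8 : N * (δ * (2 * V * Real.exp (-(N * δ)))) ≤ N * ε := by
    have h9 : N * (δ * (2 * V * Real.exp (-(N * δ)))) = 2 * V * (N * δ * Real.exp (-(N * δ))) := by
      ring
    rw [h9]
    calc 2 * V * (N * δ * Real.exp (-(N * δ))) ≤ 2 * V * 1 :=
          mul_le_mul_of_nonneg_left h6 (by positivity)
      _ ≤ N * ε := by linarith
  exact le_of_mul_le_mul_left h8 hN0

theorem chiBlock [ConnectedSpace X] (hn : 2 ≤ n) : ChiBlock n X :=
  chiBlock_of hn (aubinYau n X) (expInt_all n X)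

end Vale.Agent.P272.K.AMP.BIG.H327
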