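import Vale.Agent.P272.K.AMP.BIG.H327.Basic
import Vale.Agent.P272.K.AMP.ABP.Mat

/-!
# AMP-BIG, block CHI: the function `m_χ = 1 / tr_χ w` (concavity, `L²` bound)
-/

open scoped Manifold ContDiff ComplexOrder Topology
open Complex Set Filter MeasureTheory

set_option linter.all false

noncomputable section

namespace Vale.Agent.P272.K.AMP.BIG.H327

open INT (intX PP IsClosedForm)
open Main BIG

variable {n : ℕ}

/-! ### matrices -/

lemma posDef_comb {A B : Matrix (Fin n) (Fin n) ℂ} (hA : A.PosDef) (hB : B.PosDef) {r : ℝ}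
    (h0 : 0 ≤ r) (h1 : r ≤ 1) : (((1 - r : ℝ) : ℂ) • A + (r : ℂ) • B).PosDef := by
  rcases h0.eq_or_lt with h | h
  · rw [← h]; simpa using hA
  · exact (posDef_ofReal_smul hB h).posSemidef_add
      (posSemidef_ofReal_smul hA.posSemidef (by linarith))

/-- operator convexity of the inverse, in the weighted form -/
lemma inv_comb_le {A B : Matrix (Fin n) (Fin n) ℂ} (hA : A.PosDef) (hB : B.PosDef) {r a b : ℝ}
    (h0 : 0 ≤ r) (h1 : r ≤ 1) (hab : (1 - r) * a + r * b = 1) :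
    ((((1 - r) * a ^ 2 : ℝ) : ℂ) • A⁻¹ + ((r * b ^ 2 : ℝ) : ℂ) • B⁻¹ -
      (((1 - r : ℝ) : ℂ) • A + (r : ℂ) • B)⁻¹).PosSemidef := by
  set D := ((1 - r : ℝ) : ℂ) • A + (r : ℂ) • B with hD
  have hDp : D.PosDef := posDef_comb hA hB h0 h1
  set C := D⁻¹ with hC
  have hAu : IsUnit A.det := isUnit_iff_ne_zero.2 (C2.posDef_det_ne_zero hA)
  have hBu : IsUnit B.det := isUnit_iff_ne_zero.2 (C2.posDef_det_ne_zero hB)
  have hDu : IsUnit D.det := isUnit_iff_ne_zero.2 (C2.posDef_det_ne_zero hDp)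
  have key : ∀ (M : Matrix (Fin n) (Fin n) ℂ) (c : ℝ), M.PosDef →
      (((c ^ 2 : ℝ) : ℂ) • M⁻¹ - ((2 * c : ℝ) : ℂ) • C + C * M * C).PosSemidef := by
    intro M c hM
    have hMu : IsUnit M.det := isUnit_iff_ne_zero.2 (C2.posDef_det_ne_zero hM)
    have hH : ((c : ℂ) • M⁻¹ - C).IsHermitian := by
      refine Matrix.IsHermitian.sub ?_ hDp.inv.isHermitian
      exact isHermitian_smul_ofReal hM.inv.isHermitian c
    have h2 := hM.posSemidef.conjTranspose_mul_mul_same ((c : ℂ) • M⁻¹ - C)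
    rw [hH.eq] at h2
    have h3 : ((c : ℂ) • M⁻¹ - C) * M * ((c : ℂ) • M⁻¹ - C) =
        ((c ^ 2 : ℝ) : ℂ) • M⁻¹ - ((2 * c : ℝ) : ℂ) • C + C * M * C := by
      have e1 : M⁻¹ * M = 1 := Matrix.nonsing_inv_mul _ hMu
      have e2 : M * M⁻¹ = 1 := Matrix.mul_nonsing_inv _ hMu
      have e3 : ((c : ℂ) • M⁻¹ - C) * M = (c : ℂ) • (1 : Matrix (Fin n) (Fin n) ℂ) - C * M := by
        rw [Matrix.sub_mul, Matrix.smul_mul, e1]
      rw [e3, Matrix.mul_sub, Matrix.sub_mul, Matrix.sub_mul, Matrix.smul_mul, Matrix.smul_mul,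
        Matrix.one_mul, Matrix.one_mul, Matrix.mul_smul, Matrix.mul_assoc C M M⁻¹, e2,
        Matrix.mul_one, smul_smul]
      push_cast
      rw [two_mul, add_smul, sq]
      abel
    rw [h3] at h2
    exact h2
  have hsum := (posSemidef_ofReal_smul (key A a hA) (by linarith : (0 : ℝ) ≤ 1 - r)).add
    (posSemidef_ofReal_smul (key B b hB) h0)
  have e : ((1 - r : ℝ) : ℂ) • (((a ^ 2 : ℝ) : ℂ) • A⁻¹ - ((2 * a : ℝ) : ℂ) • C + C * A * C) +
      (r : ℂ) • (((b ^ 2 : ℝ) : ℂ) • B⁻¹ - ((2 * b : ℝ) : ℂ) • C + C * B * C) =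
      (((1 - r) * a ^ 2 : ℝ) : ℂ) • A⁻¹ + ((r * b ^ 2 : ℝ) : ℂ) • B⁻¹ - C := by
    have e1 : C * D * C = C := by
      rw [hC, Matrix.nonsing_inv_mul _ hDu, Matrix.one_mul]
    have e2 : C * D * C = ((1 - r : ℝ) : ℂ) • (C * A * C) + (r : ℂ) • (C * B * C) := by
      rw [hD, Matrix.mul_add, Matrix.add_mul, Matrix.mul_smul, Matrix.mul_smul, Matrix.smul_mul,
        Matrix.smul_mul]
    have e3 : ((1 - r : ℝ) : ℂ) • (((2 * a : ℝ) : ℂ) • C) + (r : ℂ) • (((2 * b : ℝ) : ℂ) • C) =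
        C + C := by
      rw [smul_smul, smul_smul, ← add_smul, ← Complex.ofReal_mul, ← Complex.ofReal_mul,
        ← Complex.ofReal_add]
      have : (1 - r) * (2 * a) + r * (2 * b) = 2 := by linarith
      rw [this, Complex.ofReal_ofNat, two_smul]
    have e4 : ((1 - r : ℝ) : ℂ) • (C * A * C) + (r : ℂ) • (C * B * C) = C := by
      rw [← e2, e1]
    calc _ = ((1 - r : ℝ) : ℂ) • (((a ^ 2 : ℝ) : ℂ) • A⁻¹) + (r : ℂ) • (((b ^ 2 : ℝ) : ℂ) • B⁻¹) -
          (((1 - r : ℝ) : ℂ) • (((2 * a : ℝ) : ℂ) • C) + (r : ℂ) • (((2 * b : ℝ) : ℂ) • C)) +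
          (((1 - r : ℝ) : ℂ) • (C * A * C) + (r : ℂ) • (C * B * C)) := by
          simp only [smul_add, smul_sub]; abel
      _ = _ := by
          rw [e3, e4, smul_smul, smul_smul, ← Complex.ofReal_mul, ← Complex.ofReal_mul]
          abel
  rw [e] at hsum
  exact hsum

/-- concavity of `A ↦ 1 / tr (A⁻¹ W)` -/
lemma concave_inv_trace [NeZero n] {A B W : Matrix (Fin n) (Fin n) ℂ} (hA : A.PosDef)
    (hB : B.PosDef) (hW : W.PosDef) {r : ℝ} (h0 : 0 ≤ r) (h1 : r ≤ 1) :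
    (1 - r) * ((A⁻¹ * W).trace.re)⁻¹ + r * ((B⁻¹ * W).trace.re)⁻¹ ≤
      (((((1 - r : ℝ) : ℂ) • A + (r : ℂ) • B)⁻¹ * W).trace.re)⁻¹ := by
  set D := ((1 - r : ℝ) : ℂ) • A + (r : ℂ) • B with hD
  have hDp : D.PosDef := posDef_comb hA hB h0 h1
  set τ := (A⁻¹ * W).trace.re with hτ
  set τ' := (B⁻¹ * W).trace.re with hτ'
  set τr := (D⁻¹ * W).trace.re with hτr
  have t1 : 0 < τ := C2.trace_re_pos hA hW
  have t2 : 0 < τ' := C2.trace_re_pos hB hW
  have t3 : 0 < τr := C2.trace_re_pos hDp hW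
  set s := (1 - r) * τ⁻¹ + r * τ'⁻¹ with hs
  have hs0 : 0 < s := by
    rcases h0.eq_or_lt with h | h
    · rw [hs, ← h]; simp [t1]
    · have a1 : 0 < r * τ'⁻¹ := mul_pos h (inv_pos.2 t2)
      have a2 : 0 ≤ (1 - r) * τ⁻¹ := mul_nonneg (by linarith) (inv_pos.2 t1).le
      linarith
  have hps := inv_comb_le hA hB (a := τ⁻¹ / s) (b := τ'⁻¹ / s) h0 h1 (by
    have : (1 - r) * (τ⁻¹ / s) + r * (τ'⁻¹ / s) = ((1 - r) * τ⁻¹ + r * τ'⁻¹) / s := by ring
    rw [this, ← hs, div_self hs0.ne'])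
  rw [← hD] at hps
  have h4 := C2.trace_mul_nonneg hps hW.posSemidef
  rw [Complex.le_def] at h4
  have h5 := h4.1
  rw [Matrix.sub_mul, Matrix.add_mul, Matrix.trace_sub, Matrix.trace_add, Matrix.smul_mul,
    Matrix.smul_mul, Matrix.trace_smul, Matrix.trace_smul, Complex.sub_re, Complex.add_re,
    smul_eq_mul, smul_eq_mul, Complex.re_ofReal_mul, Complex.re_ofReal_mul, ← hτ, ← hτ',
    ← hτr, Complex.zero_re] at h5
  have h6 : (1 - r) * (τ⁻¹ / s) ^ 2 * τ + r * (τ'⁻¹ / s) ^ 2 * τ' = s⁻¹ := by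
    have f1 : (τ⁻¹ / s) ^ 2 * τ = τ⁻¹ / s ^ 2 := by field_simp
    have f2 : (τ'⁻¹ / s) ^ 2 * τ' = τ'⁻¹ / s ^ 2 := by field_simp
    rw [mul_assoc, mul_assoc, f1, f2]
    have e1 : (1 - r) * (τ⁻¹ / s ^ 2) + r * (τ'⁻¹ / s ^ 2) =
        ((1 - r) * τ⁻¹ + r * τ'⁻¹) / s ^ 2 := by ring
    rw [e1, ← hs]
    field_simp
  have h7 : τr ≤ s⁻¹ := by linarith
  have h8 := inv_anti₀ t3 h7
  rwa [inv_inv] at h8

/-! ### on the manifold -/

variable {X : Type} [TopologicalSpace X] [ChartedSpace (Cm n) X]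
  {w χ : Chart n X → Cm n → Matrix (Fin n) (Fin n) ℂ}

section
variable [IsManifold 𝓘(ℂ, Cm n) ω X]

lemma mX_pos [NeZero n] (hχ : IsHermitian χ) (hw : IsHermitian w) (x : X) : 0 < mX w χ x :=
  inv_pos.2 (S7.trX_pos hχ hw x)

lemma smoothFn_mX [NeZero n] (hχ : IsHermitian χ) (hw : IsHermitian w) :
    SmoothFn (n := n) (mX w χ) := by
  have h1 : mX w χ = fun x => (trX χ w x) ^ (-1 : ℝ) := by
    funext x
    rw [mX, Real.rpow_neg_one]
  rw [h1]
  exact sm_rpow (S7.smoothFn_trX_w hχ hw) (fun x => S7.trX_pos hχ hw x) (-1)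

lemma continuous_mX [NeZero n] (hχ : IsHermitian χ) (hw : IsHermitian w) :
    Continuous (mX w χ) := INT.SmoothFn.continuous (smoothFn_mX hχ hw)

/-- concavity of `m` along the convex set of potentials -/
lemma mX_concave [NeZero n] (hw : IsHermitian w) {t r : ℝ} (h0 : 0 ≤ r) (h1 : r ≤ 1)
    {σ τ : X → ℝ} (hσ : Pot w t σ) (hτ : Pot w t τ) (x : X) :
    (1 - r) * mX w (chiF w t σ) x + r * mX w (chiF w t τ) x ≤
      mX w (chiF w t (fun x => (1 - r) * σ x + r * τ x)) x := by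
  have hx := at_chartAt (n := n) x
  have h2 := concave_inv_trace (hσ.pos _ _ hx) (hτ.pos _ _ hx) (hw.posDef _ _ hx) h0 h1
  have h3 := chiF_const_mul_add (w := w) (t := t) (show (1 - r) + r = 1 by ring) hσ.smooth
    hτ.smooth hx
  rw [← h3] at h2
  exact h2

/-- `m² ≤ 1 + det χ / det w` (`n ≥ 2`) -/
lemma mX_sq_le (hn : 2 ≤ n) (hχ : IsHermitian χ) (hw : IsHermitian w) {e : Chart n X} {x : X}
    (hx : At e x) : (mX w χ x) ^ 2 ≤ 1 + (χ e (e x)).det.re / (w e (e x)).det.re := by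
  haveI : NeZero n := ⟨by omega⟩
  haveI : Nonempty (Fin n) := ⟨⟨0, by omega⟩⟩
  have hn' : (2 : ℝ) ≤ n := by exact_mod_cast hn
  have hc := hχ.det_re_pos hx
  have hw0 := hw.det_re_pos hx
  have h1 := ABP.amgm_trace_inv (hχ.posDef e x hx) (hw.posDef e x hx)
  rw [Fintype.card_fin] at h1
  have h2 : trX χ w x = ((χ e (e x))⁻¹ * w e (e x)).trace.re := trX_eq hχ hw.isForm hx
  rw [← h2] at h1
  set q : ℝ := (χ e (e x)).det.re / (w e (e x)).det.re with hq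
  have hq0 : 0 < q := div_pos hc hw0
  have h3 : (w e (e x)).det.re / (χ e (e x)).det.re = q⁻¹ := by rw [hq, inv_div]
  rw [h3, Real.inv_rpow hq0.le] at h1
  have hp : 0 < q ^ ((1 : ℝ) / n) := Real.rpow_pos_of_pos hq0 _
  have h4 : (q ^ ((1 : ℝ) / n))⁻¹ ≤ trX χ w x := by
    refine le_trans ?_ h1
    exact le_mul_of_one_le_left (inv_pos.2 hp).le (by linarith)
  have h5 : mX w χ x ≤ q ^ ((1 : ℝ) / n) := by
    have := inv_anti₀ (inv_pos.2 hp) h4
    rwa [inv_inv] at this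
  have h6 : 0 < mX w χ x := mX_pos hχ hw x
  have h7 : (mX w χ x) ^ 2 ≤ (q ^ ((1 : ℝ) / n)) ^ 2 := pow_le_pow_left₀ h6.le h5 2
  refine h7.trans ?_
  rw [← Real.rpow_natCast, ← Real.rpow_mul hq0.le]
  have h8 : (1 : ℝ) / n * (2 : ℕ) ≤ 1 := by
    push_cast
    rw [div_mul_eq_mul_div, one_mul, div_le_one (by linarith)]
    exact hn'
  have h9 : 0 ≤ (1 : ℝ) / n * (2 : ℕ) := by positivity
  rcases le_or_gt q 1 with hq1 | hq1
  · have := Real.rpow_le_one hq0.le hq1 h9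
    linarith
  · have h10 : q ^ ((1 : ℝ) / n * (2 : ℕ)) ≤ q ^ (1 : ℝ) :=
      Real.rpow_le_rpow_of_exponent_le hq1.le h8
    rw [Real.rpow_one] at h10
    linarith

variable [T2Space X] [CompactSpace X]

/-- uniform `L²` bound of `m` -/
lemma IX_mX_sq_le (hn : 2 ≤ n) (hw : IsKahler w) {t : ℝ} {σ : X → ℝ} (h : Pot w t σ) :
    IX w (fun x => (mX w (chiF w t σ) x) ^ 2) ≤ IX w (fun _ => 1) + PP (phi0 w) w t := by
  haveI : NeZero n := ⟨by omega⟩
  have hK := h.kahler hw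
  have hc := continuous_mX hK.toIsHermitian hw.toIsHermitian
  have h1 : PP (phi0 w) w t = intX (fun e z => (chiF w t σ e z).det.re) :=
    (Pot.vol hw h.smooth).symm
  have d0 : INT.IsDensity (fun e z => (w e z).det.re) :=
    INT.isDensity_det hw.toIsHermitian.change hw.smooth
  have d1 : INT.IsDensity (fun e z => (chiF w t σ e z).det.re) :=
    (isClosedForm_chiF hw t h.smooth).isDensity
  have h2 : IX w (fun _ => 1) = intX (fun e z => (w e z).det.re) := by unfold IX; simp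
  rw [h1, h2, ← INT.intX_add d0 d1]
  refine INT.intX_mono (isDensity_IX hw.toIsHermitian (hc.pow 2)) (d0.add d1) fun e x hx => ?_
  have h3 := mX_sq_le hn hK.toIsHermitian hw.toIsHermitian hx
  have h4 := hw.toIsHermitian.det_re_pos hx
  rw [hx.left_inv]
  calc mX w (chiF w t σ) x ^ 2 * (w e (e x)).det.re ≤
      (1 + (chiF w t σ e (e x)).det.re / (w e (e x)).det.re) * (w e (e x)).det.re :=
        mul_le_mul_of_nonneg_right h3 h4.le
    _ = _ := by field_simp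

end

end Vale.Agent.P272.K.AMP.BIG.H327
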