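import Vale.Agent.P272.K.AMP.BIG.H327.MX

/-!
# AMP-BIG, block CHI: the oracle
-/

open scoped Manifold ContDiff ComplexOrder Topology
open Complex Set Filter MeasureTheory

set_option linter.all false

noncomputable section

namespace Vale.Agent.P272.K.AMP.BIG.H327

open INT (intX PP IsClosedForm)
open Main BIG

variable {n : ℕ} {X : Type} [TopologicalSpace X] [ChartedSpace (Cm n) X]
  [IsManifold 𝓘(ℂ, Cm n) ω X] [T2Space X] [CompactSpace X]
  {w : Chart n X → Cm n → Matrix (Fin n) (Fin n) ℂ}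

/-- the scaled Aubin-Yau equation `det χ' = F e^{λσ'} det w` -/
theorem exists_MA (hAY : AubinYau n X) (hw : IsKahler w) {t : ℝ} (hP : Pos w t) {F : X → ℝ}
    (hF : SmoothFn (n := n) F) (hF0 : ∀ x, 0 < F x) {lam : ℝ} (hl : 0 < lam) :
    ∃ σ : X → ℝ, Pot w t σ ∧ ∀ e x, At e x →
      (chiF w t σ e (e x)).det.re = F x * Real.exp (lam * σ x) * (w e (e x)).det.re := by
  obtain ⟨σ0, h0⟩ := exists_pot hw.toIsHermitian hP
  have hK0 := h0.kahler hw
  set χl : Chart n X → Cm n → Matrix (Fin n) (Fin n) ℂ := fun e z => (lam : ℂ) • chiF w t σ0 e z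
    with hχl
  have hKl : IsKahler χl := isKahler_of_closed ((isClosedForm_chiF hw t h0.smooth).smul _)
    fun e x hx => posDef_ofReal_smul (h0.pos e x hx) hl
  have hpot := smoothFn_pot hw.toIsHermitian hK0.toIsHermitian
  have hF' : SmoothFn (n := n) (fun x => (Real.log (F x) + lam * σ0 x) - potX w (chiF w t σ0) x) :=
    sm_sub (sm_add (sm_log hF hF0) (sm_const_mul lam h0.smooth)) hpot
  obtain ⟨u, hu, hupos, heq⟩ := hAY χl hKl _ hF'
  have hl' : (lam : ℂ) ≠ 0 := by exact_mod_cast hl.ne'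
  have hσs : SmoothFn (n := n) (fun x => σ0 x + lam⁻¹ * u x) :=
    sm_add h0.smooth (sm_const_mul _ hu)
  have key : ∀ e x, At e x → addH χl u e (e x) =
      (lam : ℂ) • chiF w t (fun x => σ0 x + lam⁻¹ * u x) e (e x) := by
    intro e x hx
    have h2 := hess_add' (n := n) h0.smooth (sm_const_mul lam⁻¹ hu) hx
    have h3 := hess_const_mul' (n := n) lam⁻¹ hu hx
    unfold hess at h2 h3
    unfold addH
    rw [hχl]
    unfold chiF
    rw [h2, h3]
    simp only [smul_add, smul_smul]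
    have h4 : (lam : ℂ) * ((lam⁻¹ : ℝ) : ℂ) = 1 := by
      rw [Complex.ofReal_inv, mul_inv_cancel₀ hl']
    rw [h4, one_smul]
    abel
  have hpos : ∀ e x, At e x → (chiF w t (fun x => σ0 x + lam⁻¹ * u x) e (e x)).PosDef := by
    intro e x hx
    have h1 := hupos e x hx
    rw [key e x hx] at h1
    have h2 := posDef_ofReal_smul h1 (inv_pos.2 hl)
    rw [smul_smul, Complex.ofReal_inv, inv_mul_cancel₀ hl', one_smul] at h2
    exact h2
  refine ⟨_, ⟨hσs, hpos⟩, fun e x hx => ?_⟩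
  have h1 := heq e x hx
  rw [key e x hx] at h1
  have hd : 0 < (chiF w t (fun x => σ0 x + lam⁻¹ * u x) e (e x)).det.re :=
    (INT.posDef_det_re (hpos e x hx)).1
  have hd0 : 0 < (chiF w t σ0 e (e x)).det.re := (INT.posDef_det_re (h0.pos e x hx)).1
  have hdw := hw.toIsHermitian.det_re_pos hx
  have hlog : ∀ M : Matrix (Fin n) (Fin n) ℂ, 0 < M.det.re →
      Real.log ((lam : ℂ) • M).det.re = n * Real.log lam + Real.log M.det.re := by
    intro M hM
    rw [Matrix.det_smul, Fintype.card_fin, ← Complex.ofReal_pow, Complex.re_ofReal_mul,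
      Real.log_mul (pow_pos hl n).ne' hM.ne', Real.log_pow]
  have h2 : χl e (e x) = (lam : ℂ) • chiF w t σ0 e (e x) := rfl
  rw [h2, hlog _ hd, hlog _ hd0, pot_eq hw.toIsHermitian hK0.toIsHermitian hx] at h1
  have h3 : Real.log (chiF w t (fun x => σ0 x + lam⁻¹ * u x) e (e x)).det.re =
      Real.log (F x * Real.exp (lam * (σ0 x + lam⁻¹ * u x)) * (w e (e x)).det.re) := by
    rw [Real.log_mul (mul_pos (hF0 x) (Real.exp_pos _)).ne' hdw.ne',
      Real.log_mul (hF0 x).ne' (Real.exp_pos _).ne', Real.log_exp]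
    have h4 : lam * (σ0 x + lam⁻¹ * u x) = lam * σ0 x + u x := by field_simp
    rw [h4]
    linarith
  exact Real.log_injOn_pos hd (mul_pos (mul_pos (hF0 x) (Real.exp_pos _)) hdw) h3

/-- `K_X ≤ C w` -/
lemma exists_upper (hw : IsKahler w) : ∃ C : ℝ, 0 < C ∧ ∀ e x, At e x →
    ((C : ℂ) • w e (e x) - cHess (fun z => Real.log (w e z).det.re) (e x)).PosSemidef := by
  have hc := isCanonical_logdet hw.toIsHermitian
  have hcl := INT.isClosedForm_canonical hc
  exact exists_comparison' (b := fun e z => cHess (fun z => Real.log (w e z).det.re) z)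
    hw.toIsHermitian hcl.smooth hcl.form
    (fun e x hx => cHess_isHermitian ((hc.smooth e x hx).of_le INT.two_le_inf))

/-- the potentials are quasi-plurisubharmonic, uniformly for `t ≤ 1` -/
lemma exists_qpsh (hw : IsKahler w) : ∃ C : ℝ, 0 < C ∧ ∀ t : ℝ, t ≤ 1 → ∀ σ : X → ℝ, Pot w t σ →
    ∀ e x, At e x → (addH (fun e z => (C : ℂ) • w e z) σ e (e x)).PosSemidef := by
  obtain ⟨C, hC0, hC⟩ := exists_upper hw
  refine ⟨C + 1, by linarith, fun t ht σ hσ e x hx => ?_⟩
  have h1 : addH (fun e z => ((C + 1 : ℝ) : ℂ) • w e z) σ e (e x) =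
      chiF w t σ e (e x) + ((C : ℂ) • w e (e x) -
        cHess (fun z => Real.log (w e z).det.re) (e x)) + ((1 - t : ℝ) : ℂ) • w e (e x) := by
    unfold addH chiF
    push_cast
    rw [add_smul, sub_smul]
    abel
  rw [h1]
  exact ((hσ.pos e x hx).posSemidef.add (hC e x hx)).add
    (posSemidef_ofReal_smul (hw.posDef e x hx).posSemidef (by linarith))

/-- uniform `L¹` bound of the potentials -/
lemma exists_L1 (hE : ExpInt n X) (hw : IsKahler w) : ∃ C1 : ℝ, 0 < C1 ∧ ∀ t : ℝ, t ≤ 1 →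
    ∀ σ : X → ℝ, Pot w t σ → (∀ x, σ x ≤ 0) → (∃ x, σ x = 0) → IX w (fun x => -σ x) ≤ C1 := by
  obtain ⟨C, hC0, hC⟩ := exists_qpsh hw
  obtain ⟨α, hα, K, hK⟩ := hE w hw.toIsHermitian C 0
  refine ⟨max (K / α) 1, lt_max_of_lt_right one_pos, fun t ht σ hσ hσ0 hz => ?_⟩
  refine le_trans ?_ (le_max_left _ _)
  obtain ⟨x0, hx0⟩ := hz
  have h1 := hK σ hσ.smooth (hC t ht σ hσ) hσ0 ⟨x0, by rw [hx0]; simp⟩
  have cσ := INT.SmoothFn.continuous hσ.smooth
  have h2 : IX w (fun x => α * (-σ x)) ≤ IX w (fun x => Real.exp (-(α * σ x))) :=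
    IX_mono hw.toIsHermitian (by fun_prop) (by fun_prop) fun x => by
      have := Real.add_one_le_exp (-(α * σ x))
      linarith
  rw [IX_const_mul] at h2
  rw [le_div_iff₀ hα, mul_comm]
  exact h2.trans h1

lemma IX_one' (g : Chart n X → Cm n → Matrix (Fin n) (Fin n) ℂ) :
    IX g (fun _ => 1) = intX fun e z => (g e z).det.re := by
  unfold IX; simp

lemma IX_pos [Nonempty X] (hw : IsHermitian w) {f : X → ℝ} (hf : Continuous f)
    (h : ∀ x, 0 < f x) : 0 < IX w f :=
  INT.intX_pos (isDensity_IX hw hf) fun e x hx => by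
    rw [hx.left_inv]
    exact mul_pos (h x) (hw.det_re_pos hx)

/-- the oracle, for a given upper bound `C1` of the `L¹` norms and `M` of `∫ tr_χ w dv_χ` -/
theorem oracle [Nonempty X] (hn : 1 ≤ n) (hAY : AubinYau n X) (hE : ExpInt n X) (hw : IsKahler w)
    {v0 M : ℝ} (hv0 : 0 < v0) (hM : 0 < M)
    (hMb : ∀ t : ℝ, 0 ≤ t → t ≤ 1 → ∀ σ : X → ℝ, Pot w t σ →
      IX (chiF w t σ) (trX (chiF w t σ) w) ≤ M)
    {t : ℝ} (ht0 : 0 ≤ t) (ht1 : t ≤ 1) (hP : Pos w t) (hv : v0 ≤ PP (phi0 w) w t)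
    {F : X → ℝ} (hF : SmoothFn (n := n) F) (hF0 : ∀ x, 0 < F x) {η : ℝ} (hη : 0 < η)
    (hη1 : η ≤ 1) :
    ∃ σ : X → ℝ, Pot w t σ ∧
      (1 - η) * (v0 / M) * IX w F ≤ IX w (fun x => F x * mX w (chiF w t σ) x) := by
  haveI : NeZero n := ⟨by omega⟩
  obtain ⟨C1, hC1, hL1⟩ := exists_L1 hE hw
  have hwH := hw.toIsHermitian
  have cF := INT.SmoothFn.continuous hF
  -- the maximum of `F`
  obtain ⟨y0, -, hy0⟩ := isCompact_univ.exists_isMaxOn ⟨Classical.arbitrary X, Set.mem_univ _⟩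
    cF.continuousOn
  set Fm := F y0 with hFm
  have hFmax : ∀ x, F x ≤ Fm := fun x => hy0 (Set.mem_univ x)
  have hFm0 : 0 < Fm := hF0 y0
  set A := IX w F with hA
  have hA0 : 0 < A := IX_pos hwH cF hF0
  -- the parameter
  set lam : ℝ := η * A / (Fm * C1) with hlam
  have hlam0 : 0 < lam := by positivity
  obtain ⟨σ, hσ, hMA⟩ := exists_MA hAY hw hP hF hF0 hlam0
  refine ⟨σ, hσ, ?_⟩
  have hχ := hσ.kahler hw
  have hχH := hχ.toIsHermitian
  have cσ := INT.SmoothFn.continuous hσ.smooth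
  obtain ⟨x0, -, hx0⟩ := isCompact_univ.exists_isMaxOn ⟨Classical.arbitrary X, Set.mem_univ _⟩
    cσ.continuousOn
  have hσmax : ∀ x, σ x ≤ σ x0 := fun x => hx0 (Set.mem_univ x)
  set s := σ x0 with hs
  set E : ℝ := Real.exp (lam * s / 2) with hEdef
  have hE0 : 0 < E := Real.exp_pos _
  have hE2 : E ^ 2 = Real.exp (lam * s) := by
    rw [hEdef, sq, ← Real.exp_add]; congr 1; ring
  -- the `L¹` bound
  have hσs : Pot w t (fun x => σ x + -s) := hσ.add_const (-s)
  have hL := hL1 t ht1 _ hσs (fun x => by have := hσmax x; linarith) ⟨x0, by rw [← hs]; ring⟩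
  -- the volume
  have hvol : PP (phi0 w) w t = IX w (fun x => F x * Real.exp (lam * σ x)) := by
    rw [← Pot.vol hw hσ.smooth]
    unfold IX
    refine INT.intX_congr fun e x hx => ?_
    rw [hMA e x hx, hx.left_inv]
  have h1 : v0 ≤ E ^ 2 * A := by
    refine hv.trans ?_
    rw [hvol, hA, ← IX_const_mul]
    refine IX_mono hwH (by fun_prop) (by fun_prop) fun x => ?_
    rw [hE2, mul_comm]
    refine mul_le_mul_of_nonneg_right (Real.exp_le_exp.2 ?_) (hF0 x).le
    exact mul_le_mul_of_nonneg_left (hσmax x) hlam0.le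
  -- the lower bound of `∫ F e^{λσ/2}`
  have h2 : E * (A - lam / 2 * (Fm * C1)) ≤ IX w (fun x => F x * Real.exp (lam * σ x / 2)) := by
    have h3 : IX w (fun x => E * (F x - lam / 2 * (Fm * (-(σ x + -s))))) ≤
        IX w (fun x => F x * Real.exp (lam * σ x / 2)) := by
      refine IX_mono hwH (by fun_prop) (by fun_prop) fun x => ?_
      have h4 : Real.exp (lam * σ x / 2) = E * Real.exp (-(lam / 2 * (-(σ x + -s)))) := by
        rw [hEdef, ← Real.exp_add]; congr 1; ring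
      rw [h4]
      have h5 := Real.add_one_le_exp (-(lam / 2 * (-(σ x + -s))))
      have h6 : 0 ≤ -(σ x + -s) := by have := hσmax x; linarith
      have h7 : F x - lam / 2 * (Fm * (-(σ x + -s))) ≤
          F x * (-(lam / 2 * (-(σ x + -s))) + 1) := by
        have h8 : F x * (-(σ x + -s)) ≤ Fm * (-(σ x + -s)) :=
          mul_le_mul_of_nonneg_right (hFmax x) h6
        nlinarith
      calc E * (F x - lam / 2 * (Fm * (-(σ x + -s)))) ≤
            E * (F x * (-(lam / 2 * (-(σ x + -s))) + 1)) := mul_le_mul_of_nonneg_left h7 hE0.le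
        _ ≤ E * (F x * Real.exp (-(lam / 2 * (-(σ x + -s))))) :=
            mul_le_mul_of_nonneg_left (mul_le_mul_of_nonneg_left h5 (hF0 x).le) hE0.le
        _ = _ := by ring
    refine le_trans ?_ h3
    have h4 : IX w (fun x => E * (F x - lam / 2 * (Fm * (-(σ x + -s))))) =
        E * (A - lam / 2 * (Fm * IX w (fun x => -(σ x + -s)))) := by
      rw [IX_const_mul, IX_sub hwH cF (by fun_prop), IX_const_mul, IX_const_mul]
    rw [h4]
    refine mul_le_mul_of_nonneg_left ?_ hE0.le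
    have h5 : lam / 2 * (Fm * IX w (fun x => -(σ x + -s))) ≤ lam / 2 * (Fm * C1) :=
      mul_le_mul_of_nonneg_left (mul_le_mul_of_nonneg_left hL hFm0.le) (by positivity)
    linarith
  have h2' : E * (A * (1 - η / 2)) ≤ IX w (fun x => F x * Real.exp (lam * σ x / 2)) := by
    refine le_trans (le_of_eq ?_) h2
    congr 1
    rw [hlam]
    field_simp
  -- the weighted arithmetic-geometric inequality
  set τ : X → ℝ := trX (chiF w t σ) w with hτ
  have hτs : SmoothFn (n := n) τ := S7.smoothFn_trX_w hχH hwH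
  have cτ := INT.SmoothFn.continuous hτs
  have hτ0 : ∀ x, 0 < τ x := fun x => S7.trX_pos hχH hwH x
  have cm : Continuous (mX w (chiF w t σ)) := continuous_mX hχH hwH
  have hT : IX w (fun x => τ x * (F x * Real.exp (lam * σ x))) ≤ M := by
    refine le_trans (le_of_eq ?_) (hMb t ht0 ht1 σ hσ)
    unfold IX
    refine INT.intX_congr fun e x hx => ?_
    rw [hMA e x hx, hx.left_inv]
    ring
  set J := IX w (fun x => F x * mX w (chiF w t σ) x) with hJ
  set B := A * (1 - η / 2) with hB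
  have hB0 : 0 < B := by
    have : 0 < 1 - η / 2 := by linarith
    positivity
  have hc : ∀ c : ℝ, 0 ≤ c → 2 * c * (E * B) - c ^ 2 * M ≤ J := by
    intro c hc0
    have h3 : IX w (fun x => 2 * c * (F x * Real.exp (lam * σ x / 2)) -
        c ^ 2 * (τ x * (F x * Real.exp (lam * σ x)))) ≤ J := by
      refine IX_mono hwH (by fun_prop) (by fun_prop) fun x => ?_
      have h4 : mX w (chiF w t σ) x = (τ x)⁻¹ := rfl
      have h5 : Real.exp (lam * σ x) = Real.exp (lam * σ x / 2) ^ 2 := by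
        rw [sq, ← Real.exp_add]; congr 1; ring
      rw [h4, h5]
      set y := Real.exp (lam * σ x / 2) with hy
      have h6 : F x * (τ x)⁻¹ - (2 * c * (F x * y) - c ^ 2 * (τ x * (F x * y ^ 2))) =
          F x * (τ x)⁻¹ * (1 - c * τ x * y) ^ 2 := by
        have h7 : (τ x)⁻¹ * τ x = 1 := inv_mul_cancel₀ (hτ0 x).ne'
        have h8 : F x * (τ x)⁻¹ * (1 - c * τ x * y) ^ 2 = F x * (τ x)⁻¹ -
            2 * c * (F x * y) * ((τ x)⁻¹ * τ x) +
            c ^ 2 * (τ x * (F x * y ^ 2)) * ((τ x)⁻¹ * τ x) := by ring1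
        rw [h8, h7]; ring
      have h7 : 0 ≤ F x * (τ x)⁻¹ * (1 - c * τ x * y) ^ 2 := by
        have := hF0 x
        have := hτ0 x
        positivity
      linarith
    have e1 : IX w (fun x => 2 * c * (F x * Real.exp (lam * σ x / 2)) -
        c ^ 2 * (τ x * (F x * Real.exp (lam * σ x)))) =
        2 * c * IX w (fun x => F x * Real.exp (lam * σ x / 2)) -
        c ^ 2 * IX w (fun x => τ x * (F x * Real.exp (lam * σ x))) := by
      rw [IX_sub hwH (by fun_prop) (by fun_prop), IX_const_mul, IX_const_mul]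
    rw [e1] at h3
    have h4 : 2 * c * (E * B) ≤ 2 * c * IX w (fun x => F x * Real.exp (lam * σ x / 2)) :=
      mul_le_mul_of_nonneg_left h2' (by linarith)
    have h5 : c ^ 2 * IX w (fun x => τ x * (F x * Real.exp (lam * σ x))) ≤ c ^ 2 * M :=
      mul_le_mul_of_nonneg_left hT (sq_nonneg c)
    linarith
  have h3 := hc (E * B / M) (by positivity)
  have h4 : 2 * (E * B / M) * (E * B) - (E * B / M) ^ 2 * M = E ^ 2 * (B ^ 2 / M) := by
    field_simp; ring
  rw [h4] at h3
  refine le_trans ?_ h3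
  have h5 : v0 / A ≤ E ^ 2 := by rwa [div_le_iff₀ hA0]
  have h6 : v0 / A * (B ^ 2 / M) ≤ E ^ 2 * (B ^ 2 / M) :=
    mul_le_mul_of_nonneg_right h5 (by positivity)
  refine le_trans ?_ h6
  have h7 : v0 / A * (B ^ 2 / M) = (1 - η / 2) ^ 2 * (v0 / M) * A := by
    rw [hB]; field_simp
  rw [h7]
  have h8 : 1 - η ≤ (1 - η / 2) ^ 2 := by nlinarith
  have h9 : 0 ≤ v0 / M * A := by positivity
  nlinarith

end Vale.Agent.P272.K.AMP.BIG.H327
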